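import Vale.Agent.P219.Relax.Six.CandB.Part.Mixed

/-!
# P219, dimension six: the pairs with both cosines outward

The check modules are chained by imports, so that their peaks of memory do not coincide.
-/

noncomputable section

open Set

namespace Vale.Agent.P219.CH.Relax.Six.CandB

open Vale.Agent.P219.Poly (E)

namespace Param

variable {σ v : ℝ} (h : Param σ v)
include h

lemma outward : ∀ j ≤ 3, Red.Bern 3 1 (Red.rowL (Red.outL (ptB σ v)) j) := by
  intro j hj
  have hc : (List.range 4).all (fun i => bernOk 3 (iR 1) (rowR outR i) []) = true := by
    decide +kernel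
  exact h.bern h.rep_one (reps_row h.reps_out j)
    (List.all_eq_true.1 hc j (List.mem_range.2 (Nat.lt_succ_of_le hj)))

end Param

end Vale.Agent.P219.CH.Relax.Six.CandB
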