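import Vale.Agent.P219.Relax.Six.CandB.Sos

/-!
# P219, dimension six: the cells of the gain at the end
-/

noncomputable section

open Set

namespace Vale.Agent.P219.CH.Relax.Six.CandB

open Vale.Agent.P219.Poly (E)

lemma ge_near : bernOk 3 xR (RE.sb (iR 0) (iR 1) endGainR) [] = true := by decide +kernel

lemma ge_mid : bernOk 3 (tR.sub xR) (RE.sb xR (iR 1) endGainR) [] = true := by decide +kernel

lemma ge0 : Good (RE.bco 3 owR (RE.sb tR (iR 1) endGainR) 0) :=
  good_of_ok (by decide +kernel)

end Vale.Agent.P219.CH.Relax.Six.CandB
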