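import Vale.Agent.P219.Relax.Six.CandB.Part.Gd2a

/-!
# P219, dimension six: charts of one coefficient of a gain

The check modules are chained by imports, so that their peaks of memory do not coincide.
-/

noncomputable section

open Set

namespace Vale.Agent.P219.CH.Relax.Six.CandB

open Vale.Agent.P219.Poly (E)

lemma gd2_cCb : E.check2 (E.cCb.app (RE.bco 3 owR (RE.sb tR (iR 1) diagR) 2).num) = true := by decide +kernel

lemma gd2_cCc : E.check2 (E.cCc.app (RE.bco 3 owR (RE.sb tR (iR 1) diagR) 2).num) = true := by decide +kernel

lemma gd2_cCd : E.check2 (E.cCd.app (RE.bco 3 owR (RE.sb tR (iR 1) diagR) 2).num) = true := by decide +kernel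

end Vale.Agent.P219.CH.Relax.Six.CandB
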