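import Vale.Agent.P219.Relax.Six.CandB.Part.MidB0

/-!
# P219, dimension six: coefficients of a middle condition

The check modules are chained by imports, so that their peaks of memory do not coincide.
-/

noncomputable section

open Set

namespace Vale.Agent.P219.CH.Relax.Six.CandB

open Vale.Agent.P219.Poly (E)

lemma midB_2 : GoodMid (RE.bco 6 (tR.sub hR) midBR 2) :=
  mid_of_sos (l := [(20, 80, 3, 1201105849280021402701225100204395058944579315546, 321308646486822973820779645136465343098076938534),
    (20, 81, 3, 795929101128324070088216484738306319873252646757, 178749725515539651644190397598009565866594779035),
    (19, 80, 3, 657767570354907473353351414852479107298180569306, 183194511903486936815069822801813388747323484890),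
    (19, 81, 3, 308411448521838075690917424181954735405337308435, 72122514796086676714850131823794798584761524680),
    (18, 80, 3, 143336149902361666742820723526589995564889904679, 41607031717020822064461052002322513371068648512),
    (18, 81, 3, 82196494574347982440408417367629591002432558927, 20115303893411396660516333870567084666920530787),
    (17, 81, 3, 18437495161761224167728891751971358255805569026, 4755053726754761178393856649517098267024525291),
    (16, 81, 3, 3589685603005965214121225296213461537857353419, 984398470551810952951728655656929562260076099),
    (18, 82, 3, 3065952717236996252522467740891175250196516537, 564874818353427172814003006252752808635067441),
    (17, 82, 3, 2225149670536047582572705951726555516963913108, 416642013898940161689251390432996681409001376),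
    (15, 81, 3, 604931103288506164842561336614632006258788131, 178337928532726902264449450221407830050756022),
    (16, 82, 3, 525783969370930727937151751505504853191984966, 101151865263365759498432845095268380269881992),
    (14, 81, 3, 86308837815861805628132493350663898347990345, 27722426896486236550253952331701242357022724),
    (15, 82, 3, 95980353269801188390937152992959966776542320, 19213064722204210405630065169191771007738984),
    (14, 82, 2, 9101660942139837763192120368719089334334347, 4631950062582747628593977179079257513841327),
    (13, 81, 3, 11690979855607930898325826674399736381037746, 3008278105145585356291592328431768630529895),
    (13, 82, 2, 1134793626887638899553967712069333117350271, 522057687934481056219443841652970768756716),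
    (12, 81, 3, 991465260076879603918615192992286202670518, 280275038393894907429613125465595901057796),
    (12, 82, 2, 95943965710668465329196595687793245701182, 40790743685866024569438462563381039860968),
    (11, 81, 3, 41028633931451321511267863694676545584788, 13244870723502734111001232283570822266532),
    (13, 83, 3, 43075847491807716874358250358669903993912, 7776018268198952848961015051166225934578)]) (by decide +kernel)

end Vale.Agent.P219.CH.Relax.Six.CandB
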