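import Vale.Agent.P219.Relax.Six.CandB.Part.MidB2

/-!
# P219, dimension six: coefficients of a middle condition

The check modules are chained by imports, so that their peaks of memory do not coincide.
-/

noncomputable section

open Set

namespace Vale.Agent.P219.CH.Relax.Six.CandB

open Vale.Agent.P219.Poly (E)

lemma midB_3 : GoodMid (RE.bco 6 (tR.sub hR) midBR 3) :=
  mid_of_sos (l := [(20, 81, 3, 9616593401437129917155232620776849562464435734885, 2843959414752919646253099071564427768494287208969),
    (19, 81, 3, 5291297560531380377699794334123434399808580346856, 1652482410803577339298986167554953743342671093922),
    (18, 81, 3, 1519028033357131284222529110974624891459314603649, 500668696596746432730677094548307746384101524917),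
    (19, 82, 3, 1409495542303858332521555091455642391857065924988, 374820672261507524805022458137949313280509884917),
    (20, 82, 3, 467265718718174692985845595348319168495160755086, 118202654605302222933747164863644513984024827592),
    (18, 82, 3, 437216152356689361828110485301971282973816693109, 122283412693088927353245148708036122433945688894),
    (17, 81, 3, 353989714872826330584736369126758194359671960941, 123176308332209462590121710862349541264877945220),
    (17, 82, 3, 109370663100024876684313517578929259607160838259, 32305728748744712520814895024960017595213902196),
    (16, 81, 3, 68732337613057457802836343384648253366040685943, 25266173655345799702532840487219121571430700291),
    (16, 82, 3, 23728783757372631513837856270613363807503218913, 7457431057425095219004039552193312395588850935),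
    (15, 81, 3, 10128990279367491258229413264995426651730954959, 3933465331456445905307795744422667703606169300),
    (17, 83, 3, 10847769227295811629058848390527164187977146822, 2464592676878061578483987565683468182683524088),
    (15, 82, 3, 4517727416790675449411620031185792158011256120, 1526793472292268607434462507922567318137074093),
    (16, 83, 3, 3218337549015123531753397837902450658226996462, 735991452755593790665571666855703661294073368),
    (14, 82, 3, 748470194214870236967291745449317696523305108, 275861829662049332939285213367771284204112999),
    (15, 83, 3, 689140803893304129196798918605873679941278672, 160884221805892140700422087660720063891238432),
    (13, 82, 3, 105367435810832813746652248782968468843820113, 43137243540009383581691969186678559354038893),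
    (14, 83, 3, 120457075275385042735978315138858989957377641, 29185720012614093920657454383216128504289676),
    (13, 83, 2, 11194587186239688434338576111568646317199255, 6795846682450415109589067273810514757015485),
    (12, 82, 2, 18381251632553761380905357432606749265554537, 3672603375010589746143825905640498321325537),
    (12, 83, 2, 1391806560227202820503189953860860224352547, 737661913817498579420533503913818489541335),
    (11, 82, 3, 1367328854367834721600061428262145496360967, 412147090410574907556980746204193632423621),
    (13, 84, 3, 357949402128755315584501023010323904111151, 98849762904385194807519908103175321112354),
    (11, 83, 2, 116751929539310795846333278450153407640439, 56168092377502196009400592711897600820708),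
    (10, 82, 3, 63868347463884801824860052769133125164015, 23987735934009345047315589210867759078910),
    (12, 84, 3, 62400118307005155297831980132637214539809, 16707596098388933372556188964402164024600),
    (5, 77, 2, 966510558348695660930691219109396884286, 15397300249611440910562460890153475428194)]) (by decide +kernel)

end Vale.Agent.P219.CH.Relax.Six.CandB
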