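import Vale.Agent.P219.Relax.Six.CandB.Sos

/-!
# P219, dimension six: the cells of the gain on the diagonal
-/

noncomputable section

open Set

namespace Vale.Agent.P219.CH.Relax.Six.CandB

open Vale.Agent.P219.Poly (E)

lemma gd_near : bernOk 3 tR (RE.sb (iR 0) (iR 1) diagR) [] = true := by decide +kernel

lemma gd0 : Good (RE.bco 3 owR (RE.sb tR (iR 1) diagR) 0) :=
  good_of_ok (by decide +kernel)

lemma gd1 : Good (RE.bco 3 owR (RE.sb tR (iR 1) diagR) 1) :=
  good_of_ok (by decide +kernel)

end Vale.Agent.P219.CH.Relax.Six.CandB
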