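import Vale.Agent.P219.Relax.Six.CandB.Sos

/-!
# P219, dimension six: coefficients of a middle condition
-/

noncomputable section

open Set

namespace Vale.Agent.P219.CH.Relax.Six.CandB

open Vale.Agent.P219.Poly (E)

lemma midA_0 : GoodMid (RE.bco 6 (tR.sub hR) midAR 0) :=
  mid_of_ok (by decide +kernel)

lemma midA_1 : GoodMid (RE.bco 6 (tR.sub hR) midAR 1) :=
  mid_of_ok (by decide +kernel)

end Vale.Agent.P219.CH.Relax.Six.CandB
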