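import Vale.Agent.P219.Relax.Six.CandB.Sos

/-!
# P219, dimension six: coefficients of a middle condition
-/

noncomputable section

open Set

namespace Vale.Agent.P219.CH.Relax.Six.CandB

open Vale.Agent.P219.Poly (E)

lemma midB_0 : GoodMid (RE.bco 6 (tR.sub hR) midBR 0) :=
  mid_of_ok (by decide +kernel)

lemma midB_1 : GoodMid (RE.bco 6 (tR.sub hR) midBR 1) :=
  mid_of_sos (l := [(17, 80, 2, 126534578511506370276853609318345779829459480, 42317281232493837603389222991633088296858827),
    (16, 80, 3, 130767574902448278819796972967637144014872795, 31858026994914911292723947878949342325266313),
    (16, 81, 2, 25786661791593557585717225745402470270256064, 11108255267831938150927866187656530284812331),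
    (15, 80, 3, 15151016671806300652646002970945654911627164, 3865519665235676647265175856684689174161860),
    (15, 81, 2, 5266914087094943894451522738369123576916788, 2158139362650981918843493406844849775160315),
    (14, 81, 2, 717082981627463186816034768219935032393004, 280560562192009094890120400870806271296052),
    (13, 81, 2, 63480284014078648015478510909095059603823, 23842902686054893597839565029588428651944)]) (by decide +kernel)

end Vale.Agent.P219.CH.Relax.Six.CandB
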